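import Mathlib
import Crest.Prelude.Def_FinProb

/-!
# Biased Fourier-Walsh analysis on the Boolean cube `ι → Bool`

Expectation `E p`, normalised characters `chi p S`, coefficients `coef p F S`, the expansion,
Parseval, the discrete derivative `D i F`.
-/

set_option autoImplicit false

namespace Crest.Agent.Lib.BoolCube

open Finset Crest.FinProb

variable {ι : Type*} [Fintype ι] [DecidableEq ι]

/-- one-coordinate weight -/
noncomputable def w1 (p : ℝ) (b : Bool) : ℝ := if b then p else 1 - p

/-- Expectation under the `p`-biased product measure. -/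
noncomputable def E (p : ℝ) (F : (ι → Bool) → ℝ) : ℝ := ∑ x, bernoulliWeight p x * F x

/-- standard deviation of one coin -/
noncomputable def sig (p : ℝ) : ℝ := Real.sqrt (p * (1 - p))

/-- normalised one-coordinate character -/
noncomputable def phi (p : ℝ) (b : Bool) : ℝ := if b then (1 - p) / sig p else -p / sig p

/-- the character of the set `S` -/
noncomputable def chi (p : ℝ) (S : Finset ι) (x : ι → Bool) : ℝ := ∏ i ∈ S, phi p (x i)

/-- Fourier coefficient -/
noncomputable def coef (p : ℝ) (F : (ι → Bool) → ℝ) (S : Finset ι) : ℝ :=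
  E p (fun x => F x * chi p S x)

/-- discrete derivative -/
def D (i : ι) (F : (ι → Bool) → ℝ) (x : ι → Bool) : ℝ :=
  F (Function.update x i true) - F (Function.update x i false)

section sig
variable {p : ℝ}

lemma sig_pos (h0 : 0 < p) (h1 : p < 1) : 0 < sig p :=
  Real.sqrt_pos.2 (mul_pos h0 (by linarith))

lemma sig_sq (h0 : 0 < p) (h1 : p < 1) : sig p ^ 2 = p * (1 - p) :=
  Real.sq_sqrt (mul_pos h0 (by linarith)).le

lemma sig_le_half (h0 : 0 < p) (h1 : p < 1) : sig p ≤ 1 / 2 := by
  have h := sig_sq h0 h1
  have hp := sig_pos h0 h1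
  nlinarith [sq_nonneg (p - 1 / 2)]

lemma phi_mean (h0 : 0 < p) (h1 : p < 1) : p * phi p true + (1 - p) * phi p false = 0 := by
  have hp := (sig_pos h0 h1).ne'
  simp only [phi, if_true, Bool.false_eq_true, if_false]
  field_simp
  ring

lemma phi_sq_mean (h0 : 0 < p) (h1 : p < 1) :
    p * (phi p true * phi p true) + (1 - p) * (phi p false * phi p false) = 1 := by
  have hp := (sig_pos h0 h1).ne'
  have h := sig_sq h0 h1
  simp only [phi, if_true, Bool.false_eq_true, if_false]
  field_simp
  rw [h]; ring

lemma p_mul_phi_true (h0 : 0 < p) (h1 : p < 1) : p * phi p true = sig p := by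
  have hp := (sig_pos h0 h1).ne'
  have h := sig_sq h0 h1
  simp only [phi, if_true]
  field_simp
  rw [h]

lemma q_mul_phi_false (h0 : 0 < p) (h1 : p < 1) : (1 - p) * phi p false = - sig p := by
  have := phi_mean h0 h1
  have := p_mul_phi_true h0 h1
  linarith

lemma one_add_phi_mul (h0 : 0 < p) (h1 : p < 1) (a b : Bool) :
    w1 p b * (1 + phi p a * phi p b) = if a = b then 1 else 0 := by
  have hp := (sig_pos h0 h1).ne'
  have h := sig_sq h0 h1
  cases a <;> cases b
  · simp only [w1, phi, Bool.false_eq_true, if_false, if_true]; field_simp; rw [h]; ring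
  · simp only [w1, phi, Bool.false_eq_true, if_false, if_true]; field_simp; rw [h]; ring
  · simp only [w1, phi, Bool.false_eq_true, Bool.true_eq_false, if_false, if_true]
    field_simp; rw [h]; ring
  · simp only [w1, phi, if_true]; field_simp; rw [h]; ring

end sig

section Ebasic
variable {p : ℝ}

omit [DecidableEq ι] in
lemma bw_eq (x : ι → Bool) : bernoulliWeight p x = ∏ i, w1 p (x i) := rfl

lemma w1_nonneg (h0 : 0 ≤ p) (h1 : p ≤ 1) (b : Bool) : 0 ≤ w1 p b := by
  cases b <;> simp [w1] <;> linarith

lemma w1_pos (h0 : 0 < p) (h1 : p < 1) (b : Bool) : 0 < w1 p b := by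
  cases b <;> simp [w1] <;> linarith

omit [DecidableEq ι] in
lemma bw_nonneg (h0 : 0 ≤ p) (h1 : p ≤ 1) (x : ι → Bool) : 0 ≤ bernoulliWeight p x :=
  Finset.prod_nonneg fun i _ => w1_nonneg h0 h1 (x i)

omit [DecidableEq ι] in
lemma bw_pos (h0 : 0 < p) (h1 : p < 1) (x : ι → Bool) : 0 < bernoulliWeight p x :=
  Finset.prod_pos fun i _ => w1_pos h0 h1 (x i)

lemma E_prod (g : ι → Bool → ℝ) :
    E p (fun x => ∏ i, g i (x i)) = ∏ i, (p * g i true + (1 - p) * g i false) := by
  have h := Finset.prod_univ_sum (fun _ : ι => (Finset.univ : Finset Bool))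
    (fun i b => w1 p b * g i b)
  simp only [Fintype.piFinset_univ] at h
  unfold E
  simp only [bw_eq, ← Finset.prod_mul_distrib]
  rw [← h]
  refine Finset.prod_congr rfl fun i _ => ?_
  simp [w1]

lemma E_const (c : ℝ) : E p (fun _ : ι → Bool => c) = c := by
  have h := E_prod (ι := ι) (p := p) (fun _ _ => 1)
  simp only [Finset.prod_const_one, mul_one, add_sub_cancel] at h
  unfold E at h ⊢
  simp only [mul_one] at h
  rw [← Finset.sum_mul, h, one_mul]

lemma E_add (F G : (ι → Bool) → ℝ) : E p (fun x => F x + G x) = E p F + E p G := by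
  simp [E, mul_add, Finset.sum_add_distrib]

lemma E_sub (F G : (ι → Bool) → ℝ) : E p (fun x => F x - G x) = E p F - E p G := by
  simp [E, mul_sub, Finset.sum_sub_distrib]

lemma E_const_mul (c : ℝ) (F : (ι → Bool) → ℝ) : E p (fun x => c * F x) = c * E p F := by
  simp only [E, Finset.mul_sum]
  exact Finset.sum_congr rfl fun x _ => by ring

lemma E_mul_const (c : ℝ) (F : (ι → Bool) → ℝ) : E p (fun x => F x * c) = E p F * c := by
  simp only [E, Finset.sum_mul]
  exact Finset.sum_congr rfl fun x _ => by ring

lemma E_sum {α : Type*} (s : Finset α) (F : α → (ι → Bool) → ℝ) :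
    E p (fun x => ∑ a ∈ s, F a x) = ∑ a ∈ s, E p (F a) := by
  simp only [E, Finset.mul_sum]
  exact Finset.sum_comm

lemma E_mono (h0 : 0 ≤ p) (h1 : p ≤ 1) {F G : (ι → Bool) → ℝ} (h : ∀ x, F x ≤ G x) :
    E p F ≤ E p G :=
  Finset.sum_le_sum fun x _ => mul_le_mul_of_nonneg_left (h x) (bw_nonneg h0 h1 x)

lemma E_nonneg (h0 : 0 ≤ p) (h1 : p ≤ 1) {F : (ι → Bool) → ℝ} (h : ∀ x, 0 ≤ F x) :
    0 ≤ E p F :=
  Finset.sum_nonneg fun x _ => mul_nonneg (bw_nonneg h0 h1 x) (h x)

lemma E_congr {F G : (ι → Bool) → ℝ} (h : ∀ x, F x = G x) : E p F = E p G := by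
  rw [show F = G from funext h]

/-- Cauchy-Schwarz -/
lemma E_mul_sq_le (h0 : 0 ≤ p) (h1 : p ≤ 1) (F G : (ι → Bool) → ℝ) :
    E p (fun x => F x * G x) ^ 2 ≤ E p (fun x => F x ^ 2) * E p (fun x => G x ^ 2) := by
  unfold E
  refine Finset.sum_sq_le_sum_mul_sum_of_sq_le_mul _ (fun x _ => ?_) (fun x _ => ?_)
    (fun x _ => ?_)
  · exact mul_nonneg (bw_nonneg h0 h1 x) (sq_nonneg _)
  · exact mul_nonneg (bw_nonneg h0 h1 x) (sq_nonneg _)
  · apply le_of_eq; ring

/-- the probability of an event as an expectation -/
lemma bernoulliProb_eq_E (A : Set (ι → Bool)) [DecidablePred (· ∈ A)] :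
    bernoulliProb p A = E p (fun x => if x ∈ A then 1 else 0) := by
  unfold bernoulliProb E
  rw [Finset.sum_filter]
  refine Finset.sum_congr rfl fun x _ => ?_
  by_cases hx : x ∈ A <;> simp [hx]

/-- invariance of the expectation under permuting the coordinates -/
lemma E_comp_perm (π : Equiv.Perm ι) (F : (ι → Bool) → ℝ) :
    E p (fun x => F (x ∘ π)) = E p F := by
  unfold E
  refine Fintype.sum_equiv (Equiv.arrowCongr π.symm (Equiv.refl Bool)) _ _ fun x => ?_
  have : (Equiv.arrowCongr π.symm (Equiv.refl Bool)) x = x ∘ π := by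
    ext i; simp [Equiv.arrowCongr]
  rw [this]
  congr 1
  simp only [bw_eq, Function.comp]
  exact (Equiv.prod_comp π (fun i => w1 p (x i))).symm

lemma bw_update (x : ι → Bool) (i : ι) (b : Bool) :
    bernoulliWeight p (Function.update x i b) = w1 p b * ∏ j ∈ univ.erase i, w1 p (x j) := by
  rw [bw_eq, ← Finset.mul_prod_erase _ _ (Finset.mem_univ i)]
  simp only [Function.update_self]
  congr 1
  refine Finset.prod_congr rfl fun j hj => ?_
  rw [Function.update_of_ne (Finset.ne_of_mem_erase hj)]

/-- resampling one coordinate -/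
lemma E_update (i : ι) (F : (ι → Bool) → ℝ) :
    E p F = E p (fun x => p * F (Function.update x i true) +
      (1 - p) * F (Function.update x i false)) := by
  -- flip involution
  let fl : (ι → Bool) → (ι → Bool) := fun x => Function.update x i (!x i)
  have hfl : Function.Involutive fl := by
    intro x; simp [fl]
  let R : (ι → Bool) → ℝ := fun x => ∏ j ∈ univ.erase i, w1 p (x j)
  have hw : ∀ x : ι → Bool, bernoulliWeight p x = w1 p (x i) * R x := by
    intro x
    have := bw_update (p := p) x i (x i)
    rwa [Function.update_eq_self] at this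
  have hR : ∀ x, R (fl x) = R x := by
    intro x
    refine Finset.prod_congr rfl fun j hj => ?_
    simp only [fl]
    rw [Function.update_of_ne (Finset.ne_of_mem_erase hj)]
  -- both sides doubled
  have key : ∀ G : (ι → Bool) → ℝ, 2 * E p G =
      ∑ x, R x * (p * G (Function.update x i true) + (1 - p) * G (Function.update x i false)) := by
    intro G
    have h2 : E p G = ∑ x, bernoulliWeight p (fl x) * G (fl x) :=
      (Fintype.sum_equiv (hfl.toPerm fl) _ _ fun x => rfl).symm
    rw [two_mul]
    nth_rewrite 2 [h2]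
    unfold E
    rw [← Finset.sum_add_distrib]
    refine Finset.sum_congr rfl fun x _ => ?_
    rw [hw x, hw (fl x), hR]
    simp only [fl, Function.update_self]
    cases hx : x i
    · have : Function.update x i false = x := by rw [← hx]; exact Function.update_eq_self i x
      simp [w1, this]; ring
    · have : Function.update x i true = x := by rw [← hx]; exact Function.update_eq_self i x
      simp [w1, this]; ring
  have h1 := key F
  have h2 := key (fun x => p * F (Function.update x i true) +
      (1 - p) * F (Function.update x i false))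
  simp only [Function.update_idem] at h2
  have h3 : ∑ x, R x * (p * F (Function.update x i true) + (1 - p) * F (Function.update x i false))
      = ∑ x, R x * (p * (p * F (Function.update x i true) + (1 - p) * F (Function.update x i false))
        + (1 - p) * (p * F (Function.update x i true) + (1 - p) * F (Function.update x i false))) :=
    Finset.sum_congr rfl fun x _ => by ring
  linarith

end Ebasic

section Fourier
variable {p : ℝ}

lemma chi_eq_prod_univ (S : Finset ι) (x : ι → Bool) :
    chi p S x = ∏ i, (if i ∈ S then phi p (x i) else 1) := by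
  unfold chi
  rw [Finset.prod_ite_mem]
  simp

omit [Fintype ι] [DecidableEq ι] in
@[simp] lemma chi_empty (x : ι → Bool) : chi p ∅ x = 1 := by simp [chi]

omit [Fintype ι] in
lemma chi_insert {S : Finset ι} {i : ι} (hi : i ∉ S) (x : ι → Bool) :
    chi p (insert i S) x = phi p (x i) * chi p S x := by
  simp [chi, Finset.prod_insert hi]

omit [Fintype ι] in
lemma chi_update_of_notMem {S : Finset ι} {i : ι} (hi : i ∉ S) (x : ι → Bool) (b : Bool) :
    chi p S (Function.update x i b) = chi p S x := by
  unfold chi
  refine Finset.prod_congr rfl fun j hj => ?_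
  rw [Function.update_of_ne]
  rintro rfl; exact hi hj

/-- orthonormality -/
lemma E_chi_mul_chi (h0 : 0 < p) (h1 : p < 1) (S T : Finset ι) :
    E p (fun x => chi p S x * chi p T x) = if S = T then 1 else 0 := by
  simp only [chi_eq_prod_univ, ← Finset.prod_mul_distrib]
  rw [E_prod (fun i b => (if i ∈ S then phi p b else 1) * (if i ∈ T then phi p b else 1))]
  have hm := phi_mean h0 h1
  have hs := phi_sq_mean h0 h1
  split_ifs with hST
  · subst hST
    refine Finset.prod_eq_one fun i _ => ?_
    by_cases hi : i ∈ S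
    · simp only [hi, if_true]; exact hs
    · simp [hi]
  · obtain ⟨i, hi⟩ : ∃ i, ¬ (i ∈ S ↔ i ∈ T) := by
      by_contra hc
      push Not at hc
      exact hST (Finset.ext hc)
    refine Finset.prod_eq_zero (Finset.mem_univ i) ?_
    by_cases hS : i ∈ S <;> by_cases hT : i ∈ T
    · exact absurd (iff_of_true hS hT) hi
    · simp only [hS, hT, if_true, if_false, mul_one]; exact hm
    · simp only [hS, hT, if_true, if_false, one_mul]; exact hm
    · exact absurd (iff_of_false hS hT) hi

lemma E_chi (h0 : 0 < p) (h1 : p < 1) (S : Finset ι) :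
    E p (chi p S) = if S = ∅ then 1 else 0 := by
  rw [← E_chi_mul_chi h0 h1 S ∅]
  simp

/-- Fourier expansion -/
lemma expansion (h0 : 0 < p) (h1 : p < 1) (F : (ι → Bool) → ℝ) (x : ι → Bool) :
    F x = ∑ S, coef p F S * chi p S x := by
  have hk : ∀ y : ι → Bool, bernoulliWeight p y * ∑ S : Finset ι, chi p S y * chi p S x
      = if x = y then 1 else 0 := by
    intro y
    have h2 : ∑ S : Finset ι, chi p S y * chi p S x = ∏ i, (1 + phi p (x i) * phi p (y i)) := by
      rw [Finset.prod_one_add, Finset.powerset_univ]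
      refine Finset.sum_congr rfl fun S _ => ?_
      unfold chi
      rw [← Finset.prod_mul_distrib]
      exact Finset.prod_congr rfl fun i _ => mul_comm _ _
    rw [h2, bw_eq, ← Finset.prod_mul_distrib]
    simp only [one_add_phi_mul h0 h1]
    rw [Finset.prod_boole]
    simp [funext_iff]
  calc F x = ∑ y, F y * (if x = y then 1 else 0) := by simp
    _ = ∑ y, F y * (bernoulliWeight p y * ∑ S : Finset ι, chi p S y * chi p S x) := by
        simp only [hk]
    _ = ∑ S, coef p F S * chi p S x := by
        simp only [coef, E, Finset.mul_sum, Finset.sum_mul]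
        rw [Finset.sum_comm]
        refine Finset.sum_congr rfl fun S _ => Finset.sum_congr rfl fun y _ => by ring

lemma E_mul_sum_chi (F : (ι → Bool) → ℝ) (a : Finset ι → ℝ) :
    E p (fun x => F x * ∑ S, a S * chi p S x) = ∑ S, a S * coef p F S := by
  simp only [Finset.mul_sum]
  rw [E_sum]
  refine Finset.sum_congr rfl fun S _ => ?_
  rw [coef, ← E_const_mul]
  exact E_congr fun x => by ring

/-- Plancherel -/
lemma plancherel (h0 : 0 < p) (h1 : p < 1) (F G : (ι → Bool) → ℝ) :
    E p (fun x => F x * G x) = ∑ S, coef p G S * coef p F S := by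
  rw [← E_mul_sum_chi]
  exact E_congr fun x => by rw [← expansion h0 h1 G x]

/-- Parseval -/
lemma parseval (h0 : 0 < p) (h1 : p < 1) (F : (ι → Bool) → ℝ) :
    E p (fun x => F x ^ 2) = ∑ S, coef p F S ^ 2 := by
  simp only [sq]
  exact plancherel h0 h1 F F

lemma coef_empty (F : (ι → Bool) → ℝ) : coef p F ∅ = E p F := by
  simp [coef]

/-- variance as Fourier weight off the empty set -/
lemma var_eq (h0 : 0 < p) (h1 : p < 1) (F : (ι → Bool) → ℝ) :
    E p (fun x => F x ^ 2) - E p F ^ 2 = ∑ S ∈ univ.erase ∅, coef p F S ^ 2 := by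
  rw [parseval h0 h1, ← Finset.add_sum_erase _ _ (Finset.mem_univ ∅), coef_empty]
  ring

omit [Fintype ι] in
lemma D_update (i : ι) (F : (ι → Bool) → ℝ) (x : ι → Bool) (b : Bool) :
    D i F (Function.update x i b) = D i F x := by
  simp [D]

lemma coef_insert (h0 : 0 < p) (h1 : p < 1) (F : (ι → Bool) → ℝ) {i : ι} {T : Finset ι}
    (hi : i ∉ T) : coef p F (insert i T) = sig p * coef p (D i F) T := by
  unfold coef
  rw [E_update i, ← E_const_mul]
  refine E_congr fun x => ?_
  simp only [chi_insert hi, chi_update_of_notMem hi, Function.update_self, D]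
  have a := p_mul_phi_true h0 h1
  have b := q_mul_phi_false h0 h1
  linear_combination (F (Function.update x i true) * chi p T x) * a
    + (F (Function.update x i false) * chi p T x) * b

lemma coef_D_of_mem (h0 : 0 < p) (h1 : p < 1) (F : (ι → Bool) → ℝ) {i : ι} {T : Finset ι}
    (hi : i ∈ T) : coef p (D i F) T = 0 := by
  unfold coef
  rw [E_update i, ← E_const (ι := ι) (p := p) 0]
  refine E_congr fun x => ?_
  rw [← Finset.insert_erase hi]
  simp only [chi_insert (Finset.notMem_erase i T), chi_update_of_notMem (Finset.notMem_erase i T),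
    Function.update_self, D_update]
  have a := phi_mean h0 h1
  linear_combination (D i F x * chi p (T.erase i) x) * a

lemma sum_mem_eq_sum_insert (i : ι) (G : Finset ι → ℝ) :
    ∑ S : Finset ι, (if i ∈ S then G S else 0) =
      ∑ T : Finset ι, (if i ∈ T then 0 else G (insert i T)) := by
  rw [← Finset.sum_filter]
  have : ∑ T : Finset ι, (if i ∈ T then 0 else G (insert i T)) =
      ∑ T ∈ univ.filter (fun T : Finset ι => i ∉ T), G (insert i T) := by
    rw [Finset.sum_filter]
    refine Finset.sum_congr rfl fun T _ => ?_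
    by_cases h : i ∈ T <;> simp [h]
  rw [this]
  refine Finset.sum_nbij' (fun S => S.erase i) (fun T => insert i T) ?_ ?_ ?_ ?_ ?_
  · intro S _; simp
  · intro T _; simp
  · intro S hS
    simp only [Finset.mem_filter, Finset.mem_univ, true_and] at hS
    exact Finset.insert_erase hS
  · intro T hT
    simp only [Finset.mem_filter, Finset.mem_univ, true_and] at hT
    exact Finset.erase_insert hT
  · intro S hS
    simp only [Finset.mem_filter, Finset.mem_univ, true_and] at hS
    rw [Finset.insert_erase hS]

/-- weighted Fourier mass on the sets through `i` in terms of the derivative -/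
lemma sum_mem_coef_sq (h0 : 0 < p) (h1 : p < 1) (F : (ι → Bool) → ℝ) (i : ι) (v : ℕ → ℝ) :
    ∑ S : Finset ι, (if i ∈ S then v (S.card - 1) * coef p F S ^ 2 else 0) =
      sig p ^ 2 * ∑ T : Finset ι, v T.card * coef p (D i F) T ^ 2 := by
  rw [sum_mem_eq_sum_insert, Finset.mul_sum]
  refine Finset.sum_congr rfl fun T _ => ?_
  by_cases h : i ∈ T
  · simp [h, coef_D_of_mem h0 h1 F h]
  · simp only [h, if_false, Finset.card_insert_of_notMem h, Nat.add_sub_cancel,
      coef_insert h0 h1 F h]
    ring

/-- influence (squared `L²` norm of the derivative) -/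
noncomputable def infl (p : ℝ) (F : (ι → Bool) → ℝ) (i : ι) : ℝ := E p (fun x => D i F x ^ 2)

lemma infl_nonneg (h0 : 0 ≤ p) (h1 : p ≤ 1) (F : (ι → Bool) → ℝ) (i : ι) : 0 ≤ infl p F i :=
  E_nonneg h0 h1 fun _ => sq_nonneg _

lemma sum_card_weight (G : Finset ι → ℝ) :
    ∑ S : Finset ι, (S.card : ℝ) * G S = ∑ i, ∑ S : Finset ι, (if i ∈ S then G S else 0) := by
  rw [Finset.sum_comm]
  refine Finset.sum_congr rfl fun S _ => ?_
  rw [← Finset.sum_filter]
  simp

/-- total influence formula -/
lemma sum_card_coef_sq (h0 : 0 < p) (h1 : p < 1) (F : (ι → Bool) → ℝ) :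
    ∑ S : Finset ι, (S.card : ℝ) * coef p F S ^ 2 = sig p ^ 2 * ∑ i, infl p F i := by
  rw [sum_card_weight, Finset.mul_sum]
  refine Finset.sum_congr rfl fun i _ => ?_
  have := sum_mem_coef_sq h0 h1 F i (fun _ => 1)
  simp only [one_mul] at this
  rw [this, infl, parseval h0 h1]

end Fourier

end Crest.Agent.Lib.BoolCube
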