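import Crest.Agent.Lib.BoolCube.Basic

/-!
# Bonami's lemma on the biased cube, small-set consequence, restrictions, Russo's formula
-/

set_option autoImplicit false

namespace Crest.Agent.Lib.BoolCube

open Finset Crest.FinProb

variable {ι : Type*} [Fintype ι] [DecidableEq ι] {p : ℝ}

/-- The two-point inequality, for any `ρ` with `ρ ^ 2 = sig p / 2`. -/
lemma two_point (h0 : 0 < p) (h1 : p < 1) {ρ : ℝ} (hρ : ρ ^ 2 = sig p / 2) (A B : ℝ) :
    p * (A + ρ * phi p true * B) ^ 4 + (1 - p) * (A + ρ * phi p false * B) ^ 4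
      ≤ (A ^ 2 + B ^ 2) ^ 2 := by
  have hs := sig_pos h0 h1
  have hs2 := sig_sq h0 h1
  have hh := sig_le_half h0 h1
  set s := sig p with hsdef
  -- moments
  have m1 : p * phi p true + (1 - p) * phi p false = 0 := phi_mean h0 h1
  have m2 : p * phi p true ^ 2 + (1 - p) * phi p false ^ 2 = 1 := by
    have := phi_sq_mean h0 h1; simp only [sq]; exact this
  have m3 : s * (p * phi p true ^ 3 + (1 - p) * phi p false ^ 3) = 1 - 2 * p := by
    simp only [phi, if_true, Bool.false_eq_true, if_false, ← hsdef]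
    field_simp
    rw [hs2]; ring
  have m4 : s ^ 2 * (p * phi p true ^ 4 + (1 - p) * phi p false ^ 4) = 1 - 3 * s ^ 2 := by
    simp only [phi, if_true, Bool.false_eq_true, if_false, ← hsdef]
    field_simp
    rw [hs2]; ring
  have e3 : ρ ^ 3 * (p * phi p true ^ 3 + (1 - p) * phi p false ^ 3) = ρ * (1 - 2 * p) / 2 := by
    rw [← m3, show ρ ^ 3 = ρ * ρ ^ 2 by ring, hρ]; ring
  have e4 : ρ ^ 4 * (p * phi p true ^ 4 + (1 - p) * phi p false ^ 4) = (1 - 3 * s ^ 2) / 4 := by
    rw [← m4, show ρ ^ 4 = (ρ ^ 2) ^ 2 by ring, hρ]; ring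
  have expand : p * (A + ρ * phi p true * B) ^ 4 + (1 - p) * (A + ρ * phi p false * B) ^ 4
      = A ^ 4 + 3 * s * A ^ 2 * B ^ 2 + 2 * (ρ * (1 - 2 * p)) * A * B ^ 3
        + (1 - 3 * s ^ 2) / 4 * B ^ 4 := by
    linear_combination (4 * A ^ 3 * B * ρ) * m1 + (6 * A ^ 2 * B ^ 2 * ρ ^ 2) * m2
      + (4 * A * B ^ 3) * e3 + B ^ 4 * e4 + (6 * A ^ 2 * B ^ 2) * hρ
  rw [expand]
  set t := ρ * (1 - 2 * p) with ht
  have ht2 : t ^ 2 ≤ 1 / 4 := by
    have : (1 - 2 * p) ^ 2 ≤ 1 := by nlinarith
    rw [ht, mul_pow, hρ]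
    nlinarith
  have k1 : 0 ≤ (A * B - 2 * t * B ^ 2) ^ 2 := sq_nonneg _
  have k2 : 0 ≤ (1 / 2 - s) * (A * B) ^ 2 := mul_nonneg (by linarith) (sq_nonneg _)
  have k3 : 0 ≤ (1 / 4 - t ^ 2) * (B ^ 2) ^ 2 := mul_nonneg (by linarith) (sq_nonneg _)
  have k4 : 0 ≤ (s * B ^ 2) ^ 2 := sq_nonneg _
  have k5 : 0 ≤ (B ^ 2) ^ 2 := sq_nonneg _
  nlinarith

/-- Bonami's lemma in coefficient form. -/
lemma bonami_aux (h0 : 0 < p) (h1 : p < 1) {ρ : ℝ} (hρ : ρ ^ 2 = sig p / 2) (J : Finset ι) :
    ∀ c : Finset ι → ℝ,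
      E p (fun x => (∑ S ∈ J.powerset, ρ ^ S.card * c S * chi p S x) ^ 4)
        ≤ (∑ S ∈ J.powerset, c S ^ 2) ^ 2 := by
  induction J using Finset.induction_on with
  | empty => intro c; simp [E_const]; apply le_of_eq; ring
  | insert i J hi ih =>
    intro c
    set A : (ι → Bool) → ℝ := fun x => ∑ S ∈ J.powerset, ρ ^ S.card * c S * chi p S x with hA
    set B : (ι → Bool) → ℝ :=
      fun x => ∑ S ∈ J.powerset, ρ ^ S.card * c (insert i S) * chi p S x with hB
    have hnot : ∀ S ∈ J.powerset, i ∉ S := fun S hS h => hi (Finset.mem_powerset.1 hS h)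
    have hsplit : ∀ x, ∑ S ∈ (insert i J).powerset, ρ ^ S.card * c S * chi p S x
        = A x + ρ * phi p (x i) * B x := by
      intro x
      rw [Finset.sum_powerset_insert hi]
      congr 1
      simp only [hB, Finset.mul_sum]
      refine Finset.sum_congr rfl fun S hS => ?_
      rw [Finset.card_insert_of_notMem (hnot S hS), chi_insert (hnot S hS)]
      ring
    have hAu : ∀ x b, A (Function.update x i b) = A x := fun x b =>
      Finset.sum_congr rfl fun S hS => by rw [chi_update_of_notMem (hnot S hS)]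
    have hBu : ∀ x b, B (Function.update x i b) = B x := fun x b =>
      Finset.sum_congr rfl fun S hS => by rw [chi_update_of_notMem (hnot S hS)]
    simp only [hsplit]
    rw [E_update i, Finset.sum_powerset_insert hi]
    simp only [hAu, hBu, Function.update_self]
    have ha := ih c
    have hb := ih (fun S => c (insert i S))
    set a := ∑ S ∈ J.powerset, c S ^ 2 with ha'
    set b := ∑ S ∈ J.powerset, c (insert i S) ^ 2 with hb'
    have ha0 : 0 ≤ a := Finset.sum_nonneg fun _ _ => sq_nonneg _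
    have hb0 : 0 ≤ b := Finset.sum_nonneg fun _ _ => sq_nonneg _
    change E p (fun x => A x ^ 4) ≤ a ^ 2 at ha
    change E p (fun x => B x ^ 4) ≤ b ^ 2 at hb
    have hcs := E_mul_sq_le h0.le h1.le (fun x => A x ^ 2) (fun x => B x ^ 2)
    simp only [← pow_mul] at hcs
    have hA4 : 0 ≤ E p (fun x => A x ^ 4) := E_nonneg h0.le h1.le fun x => by positivity
    have hB4 : 0 ≤ E p (fun x => B x ^ 4) := E_nonneg h0.le h1.le fun x => by positivity
    have hAB : E p (fun x => A x ^ 2 * B x ^ 2) ≤ a * b := by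
      apply le_of_sq_le_sq _ (mul_nonneg ha0 hb0)
      calc _ ≤ _ := hcs
        _ ≤ a ^ 2 * b ^ 2 := mul_le_mul ha hb hB4 (sq_nonneg _)
        _ = (a * b) ^ 2 := by ring
    calc _ ≤ E p (fun x => A x ^ 4 + 2 * (A x ^ 2 * B x ^ 2) + B x ^ 4) := by
          refine E_mono h0.le h1.le fun x => ?_
          refine (two_point h0 h1 hρ (A x) (B x)).trans (le_of_eq ?_)
          ring
      _ = E p (fun x => A x ^ 4) + 2 * E p (fun x => A x ^ 2 * B x ^ 2)
          + E p (fun x => B x ^ 4) := by
          rw [E_add, E_add, E_const_mul]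
      _ ≤ (a + b) ^ 2 := by nlinarith

lemma bonami (h0 : 0 < p) (h1 : p < 1) {ρ : ℝ} (hρ : ρ ^ 2 = sig p / 2) (c : Finset ι → ℝ) :
    E p (fun x => (∑ S, ρ ^ S.card * c S * chi p S x) ^ 4) ≤ (∑ S, c S ^ 2) ^ 2 := by
  have := bonami_aux h0 h1 hρ Finset.univ c
  rwa [Finset.powerset_univ] at this

/-- Small-set consequence: for `h` with values in `{0, 1, -1}` the noisy weight is at most
`α ^ (3/2)`, where `α = E h²`. -/
lemma noisy_sq_le (h0 : 0 < p) (h1 : p < 1) (h : (ι → Bool) → ℝ) (hh : ∀ x, h x ^ 3 = h x) :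
    (∑ T : Finset ι, (sig p / 2) ^ T.card * coef p h T ^ 2) ^ 2 ≤ E p (fun x => h x ^ 2) ^ 3 := by
  have hs := sig_pos h0 h1
  set ρ := Real.sqrt (sig p / 2) with hρdef
  have hρ : ρ ^ 2 = sig p / 2 := Real.sq_sqrt (by positivity)
  set N := ∑ T : Finset ι, (sig p / 2) ^ T.card * coef p h T ^ 2 with hN
  set α := E p (fun x => h x ^ 2) with hα
  have hα0 : 0 ≤ α := E_nonneg h0.le h1.le fun x => sq_nonneg _
  have hN0 : 0 ≤ N := Finset.sum_nonneg fun T _ => by positivity
  set u : (ι → Bool) → ℝ := fun x => ∑ T, ((sig p / 2) ^ T.card * coef p h T) * chi p T x with hu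
  have e1 : E p (fun x => h x * u x) = N := by
    simp only [hu]
    rw [E_mul_sum_chi]
    exact Finset.sum_congr rfl fun T _ => by ring
  have e2 : E p (fun x => u x ^ 4) ≤ N ^ 2 := by
    have := bonami h0 h1 hρ (fun T => ρ ^ T.card * coef p h T)
    have a1 : ∀ x, ∑ S : Finset ι, ρ ^ S.card * (ρ ^ S.card * coef p h S) * chi p S x = u x := by
      intro x
      refine Finset.sum_congr rfl fun T _ => ?_
      rw [← hρ, ← pow_mul, mul_comm 2, pow_mul]; ring
    have a2 : ∑ S : Finset ι, (ρ ^ S.card * coef p h S) ^ 2 = N := by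
      refine Finset.sum_congr rfl fun T _ => ?_
      rw [← hρ, ← pow_mul, mul_comm 2, pow_mul]; ring
    simpa only [a1, a2] using this
  have h4 : ∀ x, (h x ^ 2) ^ 2 = h x ^ 2 := fun x => by
    have := hh x
    linear_combination (h x) * this
  have c1 := E_mul_sq_le h0.le h1.le h (fun x => h x ^ 2 * u x)
  have c2 := E_mul_sq_le h0.le h1.le (fun x => h x ^ 2) (fun x => u x ^ 2)
  have r1 : E p (fun x => h x * (h x ^ 2 * u x)) = N := by
    rw [← e1]; refine E_congr fun x => ?_
    linear_combination (u x) * hh x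
  have r2 : E p (fun x => (h x ^ 2 * u x) ^ 2) = E p (fun x => h x ^ 2 * u x ^ 2) := by
    refine E_congr fun x => ?_
    rw [mul_pow, h4]
  rw [r1, r2, ← hα] at c1
  simp only [h4, ← pow_mul] at c2
  rw [← hα] at c2
  set M := E p (fun x => h x ^ 2 * u x ^ 2) with hM
  have hM0 : 0 ≤ M := E_nonneg h0.le h1.le fun x => by positivity
  have c3 : M ^ 2 ≤ α * N ^ 2 := c2.trans (mul_le_mul_of_nonneg_left e2 hα0)
  have c4 : (N ^ 2) ^ 2 ≤ α ^ 3 * N ^ 2 := by
    calc (N ^ 2) ^ 2 ≤ (α * M) ^ 2 := pow_le_pow_left₀ (sq_nonneg _) c1 2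
      _ = α ^ 2 * M ^ 2 := by ring
      _ ≤ α ^ 2 * (α * N ^ 2) := mul_le_mul_of_nonneg_left c3 (sq_nonneg _)
      _ = α ^ 3 * N ^ 2 := by ring
  rcases (sq_nonneg N).eq_or_lt with hz | hpos
  · rw [← hz]; positivity
  · have : N ^ 2 * N ^ 2 ≤ α ^ 3 * N ^ 2 := by rw [← sq]; exact c4
    exact le_of_mul_le_mul_right this hpos

/-! ### Restrictions -/

/-- restriction: coordinates in `J` stay alive, the others are read from `z` -/
def restr (J : Finset ι) (F : (ι → Bool) → ℝ) (z : ι → Bool) (y : ι → Bool) : ℝ :=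
  F (J.piecewise y z)

omit [Fintype ι] in
lemma chi_piecewise (J S : Finset ι) (y z : ι → Bool) :
    chi p S (J.piecewise y z) = chi p (S ∩ J) y * chi p (S \ J) z := by
  unfold chi
  rw [← Finset.prod_inter_mul_prod_sdiff S J]
  congr 1
  · refine Finset.prod_congr rfl fun i hi => ?_
    rw [Finset.piecewise_eq_of_mem _ _ _ (Finset.mem_inter.1 hi).2]
  · refine Finset.prod_congr rfl fun i hi => ?_
    rw [Finset.piecewise_eq_of_notMem _ _ _ (Finset.mem_sdiff.1 hi).2]

lemma coef_restr (h0 : 0 < p) (h1 : p < 1) (J : Finset ι) (F : (ι → Bool) → ℝ) (z : ι → Bool)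
    (T : Finset ι) : coef p (restr J F z) T =
      ∑ S, (if S ∩ J = T then coef p F S else 0) * chi p (S \ J) z := by
  unfold restr
  have : ∀ y, F (J.piecewise y z) * chi p T y =
      ∑ S, (coef p F S * chi p (S \ J) z) * (chi p (S ∩ J) y * chi p T y) := by
    intro y
    rw [expansion h0 h1 F (J.piecewise y z), Finset.sum_mul]
    refine Finset.sum_congr rfl fun S _ => ?_
    rw [chi_piecewise]; ring
  rw [coef]
  simp only [this]
  rw [E_sum]
  refine Finset.sum_congr rfl fun S _ => ?_
  rw [E_const_mul, E_chi_mul_chi h0 h1]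
  split_ifs <;> simp

lemma E_coef_restr_sq (h0 : 0 < p) (h1 : p < 1) (J : Finset ι) (F : (ι → Bool) → ℝ)
    (T : Finset ι) : E p (fun z => coef p (restr J F z) T ^ 2) =
      ∑ S, (if S ∩ J = T then coef p F S ^ 2 else 0) := by
  simp only [coef_restr h0 h1, sq, Finset.sum_mul_sum]
  rw [E_sum]
  refine Finset.sum_congr rfl fun S _ => ?_
  rw [E_sum]
  have : ∀ S' : Finset ι, E p (fun z => (if S ∩ J = T then coef p F S else 0) * chi p (S \ J) z *
      ((if S' ∩ J = T then coef p F S' else 0) * chi p (S' \ J) z)) =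
      if S' = S then (if S ∩ J = T then coef p F S * coef p F S else 0) else 0 := by
    intro S'
    have e : ∀ z, (if S ∩ J = T then coef p F S else 0) * chi p (S \ J) z *
      ((if S' ∩ J = T then coef p F S' else 0) * chi p (S' \ J) z) =
      ((if S ∩ J = T then coef p F S else 0) * (if S' ∩ J = T then coef p F S' else 0)) *
        (chi p (S \ J) z * chi p (S' \ J) z) := fun z => by ring
    simp only [e]
    rw [E_const_mul, E_chi_mul_chi h0 h1]
    by_cases hS : S' = S
    · subst hS
      by_cases hT : S' ∩ J = T <;> simp [hT]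
    · simp only [hS, if_false]
      by_cases a : S ∩ J = T
      · by_cases b : S' ∩ J = T
        · have : ¬ (S \ J = S' \ J) := by
            intro c
            apply hS
            rw [← Finset.sdiff_union_inter S J, ← Finset.sdiff_union_inter S' J, a, b, c]
          simp [this]
        · simp [b]
      · simp [a]
  simp only [this]
  simp

lemma E_weight_restr (h0 : 0 < p) (h1 : p < 1) (J : Finset ι) (F : (ι → Bool) → ℝ)
    (v : Finset ι → ℝ) :
    E p (fun z => ∑ T, v T * coef p (restr J F z) T ^ 2) = ∑ S, v (S ∩ J) * coef p F S ^ 2 := by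
  rw [E_sum]
  simp only [E_const_mul, E_coef_restr_sq h0 h1, Finset.mul_sum]
  rw [Finset.sum_comm]
  refine Finset.sum_congr rfl fun S _ => ?_
  simp only [mul_ite, mul_zero]
  rw [Finset.sum_ite_eq]
  simp

lemma E_E_restr_sq (h0 : 0 < p) (h1 : p < 1) (J : Finset ι) (F : (ι → Bool) → ℝ) :
    E p (fun z => E p (fun y => restr J F z y ^ 2)) = E p (fun x => F x ^ 2) := by
  have := E_weight_restr h0 h1 J F (fun _ => 1)
  simp only [one_mul] at this
  simp only [parseval h0 h1]
  exact this

omit [Fintype ι] in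
lemma D_restr_of_mem {J : Finset ι} {e : ι} (he : e ∈ J) (F : (ι → Bool) → ℝ) (z : ι → Bool) :
    D e (restr J F z) = restr J (D e F) z := by
  funext y
  have : ∀ b, J.piecewise (Function.update y e b) z = Function.update (J.piecewise y z) e b := by
    intro b
    funext j
    by_cases hj : j = e
    · subst hj; simp [Finset.piecewise, he]
    · simp [Finset.piecewise, hj]
  simp only [D, restr, this]

omit [Fintype ι] in
lemma D_restr_of_notMem {J : Finset ι} {e : ι} (he : e ∉ J) (F : (ι → Bool) → ℝ) (z : ι → Bool) :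
    D e (restr J F z) = fun _ => 0 := by
  funext y
  have : ∀ b, J.piecewise (Function.update y e b) z = J.piecewise y z := by
    intro b
    funext j
    by_cases hj : j ∈ J
    · have : j ≠ e := by rintro rfl; exact he hj
      simp [Finset.piecewise, hj, this]
    · simp [Finset.piecewise, hj]
  simp only [D, restr, this, sub_self]

lemma E_total_infl_restr (h0 : 0 < p) (h1 : p < 1) (J : Finset ι) (F : (ι → Bool) → ℝ) :
    E p (fun z => ∑ e, infl p (restr J F z) e) = ∑ e ∈ J, infl p F e := by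
  rw [E_sum]
  have : ∀ e, E p (fun z => infl p (restr J F z) e) = if e ∈ J then infl p F e else 0 := by
    intro e
    split_ifs with he
    · simp only [infl, D_restr_of_mem he]
      exact E_E_restr_sq h0 h1 J (D e F)
    · simp [infl, D_restr_of_notMem he, E_const]
  simp only [this]
  rw [Finset.sum_ite_mem]
  simp

/-- influences of an invariant function are invariant -/
lemma infl_perm (π : Equiv.Perm ι) (g : (ι → Bool) → ℝ) (hg : ∀ x, g (x ∘ π) = g x) (e : ι) :
    infl p g (π e) = infl p g e := by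
  unfold infl
  rw [← E_comp_perm π (fun x => D e g x ^ 2)]
  refine E_congr fun x => ?_
  have : ∀ b, Function.update (x ∘ π) e b = Function.update x (π e) b ∘ π := by
    intro b
    funext j
    by_cases hj : j = e
    · subst hj; simp
    · simp [Function.update_of_ne hj, Function.update_of_ne (π.injective.ne hj)]
  simp only [D, this, hg]

/-! ### Russo's formula -/

lemma hasDerivAt_E (h0 : 0 < p) (h1 : p < 1) (F : (ι → Bool) → ℝ) :
    HasDerivAt (fun t => E t F) (∑ e, E p (D e F)) p := by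
  have hw : ∀ b : Bool, HasDerivAt (fun t => w1 t b) (if b then 1 else -1) p := by
    intro b
    cases b
    · simpa [w1] using (hasDerivAt_id p).const_sub 1
    · simpa [w1] using hasDerivAt_id' p
  have hx : ∀ x : ι → Bool, HasDerivAt (fun t => bernoulliWeight t x * F x)
      ((∑ i, (∏ j ∈ univ.erase i, w1 p (x j)) • (if x i then (1 : ℝ) else -1)) * F x) p := by
    intro x
    exact (HasDerivAt.fun_finsetProd (u := univ) (f := fun i t => w1 t (x i))
      (fun i _ => hw (x i))).mul_const (F x)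
  have hsum := HasDerivAt.fun_sum (u := (univ : Finset (ι → Bool))) (fun x _ => hx x)
  refine HasDerivAt.congr_deriv (f := fun t => E t F) hsum (Eq.symm ?_)
  simp only [Finset.sum_mul]
  rw [Finset.sum_comm]
  refine Finset.sum_congr rfl fun e _ => ?_
  have key : ∑ x : ι → Bool, ((∏ j ∈ univ.erase e, w1 p (x j)) • (if x e then (1 : ℝ) else -1)) * F x
      = E p (fun x => (if x e then (1 : ℝ) else -1) / w1 p (x e) * F x) := by
    unfold E
    refine Finset.sum_congr rfl fun x _ => ?_
    have hb := bw_update (p := p) x e (x e)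
    rw [Function.update_eq_self] at hb
    have := (w1_pos h0 h1 (x e)).ne'
    rw [hb, smul_eq_mul]
    field_simp
  rw [key, E_update e (fun x => (if x e then (1 : ℝ) else -1) / w1 p (x e) * F x)]
  refine E_congr fun x => ?_
  have a : p ≠ 0 := h0.ne'
  have b : 1 - p ≠ 0 := by linarith
  simp only [Function.update_self, D, w1, if_true, Bool.false_eq_true, if_false]
  field_simp
  ring

end Crest.Agent.Lib.BoolCube
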